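import Vale.Agent.P284Z.L.Defs
import Mathlib.Analysis.Calculus.InverseFunctionTheorem.ContDiff

/-!
# P284Z, block L, piece 6a: frames and slices
-/

open scoped ContDiff Topology
open Filter Set Function Metric

noncomputable section

namespace Vale.Agent.P284Z.L.S6a

open Vale.Agent.P272.K

variable {n p : ℕ} {b : Cm n → Cm p} {z : Cm n}

/-- the linear map defined by a frame -/
def fr (ξ : Fin p → Cm n) : Cm p →L[ℂ] Cm n :=
  ∑ k, (ContinuousLinearMap.proj k : Cm p →L[ℂ] ℂ).smulRight (ξ k)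

theorem fr_apply (ξ : Fin p → Cm n) (w : Cm p) : fr ξ w = ∑ k, w k • ξ k := by
  simp [fr]

theorem fr_single (ξ : Fin p → Cm n) (k : Fin p) : fr ξ (Pi.single k 1) = ξ k := by
  simp [fr_apply, Pi.single_apply]

theorem dd_comb (M : Matrix (Fin p) (Fin p) ℂ) (ξ : Fin p → Cm n) :
    dd b z (fun k => ∑ k', M k k' • ξ k') = M.det * dd b z ξ := by
  rw [dd, dd, mul_comm, ← Matrix.det_transpose M, ← Matrix.det_mul]
  congr 1
  ext i j
  simp [Matrix.mul_apply, Finset.sum_apply, mul_comm]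

theorem dd_an (hb : AnalyticAt ℂ b z) (ξ : Fin p → Cm n) :
    AnalyticAt ℂ (fun w => dd b w ξ) z := by
  simp only [dd, Matrix.det_apply']
  refine Finset.analyticAt_fun_sum _ fun σ _ =>
    analyticAt_const.mul (Finset.analyticAt_fun_prod _ fun i _ => ?_)
  have h : ContDiffAt ℂ ω (fun w => fderiv ℂ b w (ξ i)) z :=
    hb.fderiv.contDiffAt.clm_apply contDiffAt_const
  exact (contDiffAt_pi.1 h _).analyticAt

theorem exists_frame (h : Surjective (fderiv ℂ b z)) :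
    ∃ ξ : Fin p → Cm n, ‖ξ‖ ≤ 1 ∧ dd b z ξ ≠ 0 := by
  choose ξ hξ using fun k : Fin p => h (Pi.single k 1)
  have h0 : (0 : ℝ) < ‖ξ‖ + 1 := by positivity
  have h1 : (((‖ξ‖ + 1)⁻¹ : ℝ) : ℂ) ≠ 0 := Complex.ofReal_ne_zero.2 (inv_pos.2 h0).ne'
  refine ⟨(((‖ξ‖ + 1)⁻¹ : ℝ) : ℂ) • ξ, ?_, ?_⟩
  · rw [norm_smul, Complex.norm_real, Real.norm_of_nonneg (inv_pos.2 h0).le, inv_mul_le_iff₀ h0]
    linarith
  · have h2 : (Matrix.of fun i j => fderiv ℂ b z (((((‖ξ‖ + 1)⁻¹ : ℝ) : ℂ) • ξ) j) i) =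
        (((‖ξ‖ + 1)⁻¹ : ℝ) : ℂ) • (1 : Matrix (Fin p) (Fin p) ℂ) := by
      ext i j
      simp only [Matrix.of_apply, Pi.smul_apply, map_smul, hξ, Matrix.smul_apply, Matrix.one_apply,
        Pi.single_apply]
    rw [dd, h2, Matrix.det_smul, Matrix.det_one, mul_one]
    exact pow_ne_zero _ h1

/-- a second slice with the same image under `b` -/
theorem exists_slice (hb : AnalyticAt ℂ b z) {ξ₀ : Fin p → Cm n} (h : dd b z ξ₀ ≠ 0)
    (ξ : Fin p → Cm n) : ∃ (u : Cm p → Cm n) (M : Matrix (Fin p) (Fin p) ℂ), AnalyticAt ℂ u 0 ∧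
      u 0 = z ∧ (∀ k, fderiv ℂ u 0 (Pi.single k 1) = ∑ k', M k k' • ξ₀ k') ∧
      (∀ᶠ w in 𝓝 (0 : Cm p), b (u w) = b (z + fr ξ w)) ∧
      dd b z (fun k => ∑ k', M k k' • ξ₀ k') = dd b z ξ := by
  have sl : ∀ ξ : Fin p → Cm n, AnalyticAt ℂ (fun w => b (z + fr ξ w)) 0 ∧
      HasFDerivAt (fun w => b (z + fr ξ w)) ((fderiv ℂ b z).comp (fr ξ)) 0 := fun ξ =>
    ⟨hb.comp_of_eq (analyticAt_const.add ((fr ξ).analyticAt 0)) (by simp),
      HasFDerivAt.comp (f := fun w => z + fr ξ w) 0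
        (by simpa using hb.differentiableAt.hasFDerivAt) ((fr ξ).hasFDerivAt.const_add z)⟩
  have h0 : ((fderiv ℂ b z).comp (fr ξ₀)).det ≠ 0 := by
    rw [ContinuousLinearMap.det, ← LinearMap.det_toMatrix']
    refine fun e => h (Eq.trans (congrArg Matrix.det ?_) e)
    ext i j
    rw [LinearMap.toMatrix'_apply]
    exact congrArg (fun x => fderiv ℂ b z x i) (fr_single ξ₀ j).symm
  have h1 : ContDiffAt ℂ ω (fun w => b (z + fr ξ₀ w)) 0 := (sl ξ₀).1.contDiffAt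
  have h2 : HasFDerivAt (fun w => b (z + fr ξ₀ w))
      ((((fderiv ℂ b z).comp (fr ξ₀)).toContinuousLinearEquivOfDetNeZero h0 :
        Cm p ≃L[ℂ] Cm p) : Cm p →L[ℂ] Cm p) 0 := by
    rw [ContinuousLinearMap.coe_toContinuousLinearEquivOfDetNeZero]
    exact (sl ξ₀).2
  obtain ⟨ι, i1, i2, i3⟩ : ∃ ι : Cm p → Cm p, AnalyticAt ℂ ι (b z) ∧ ι (b z) = 0 ∧
      ∀ᶠ t in 𝓝 (b z), b (z + fr ξ₀ (ι t)) = t := by
    refine ⟨h1.localInverse h2 (by simp), ?_, ?_, ?_⟩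
    · simpa using (h1.to_localInverse h2 (by simp)).analyticAt
    · simpa using h1.localInverse_apply_image h2 (by simp)
    · have h3 := (h1.hasStrictFDerivAt' h2 (by simp)).eventually_right_inverse
      rw [map_zero, add_zero] at h3
      exact h3
  have v1 : AnalyticAt ℂ (fun w => ι (b (z + fr ξ w))) 0 := i1.comp_of_eq (sl ξ).1 (by simp)
  have u1 : HasFDerivAt (fun w => z + fr ξ₀ (ι (b (z + fr ξ w))))
      ((fr ξ₀).comp (fderiv ℂ (fun w => ι (b (z + fr ξ w))) 0)) 0 :=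
    ((fr ξ₀).hasFDerivAt.comp 0 v1.differentiableAt.hasFDerivAt).const_add z
  have u2 : ∀ᶠ w in 𝓝 (0 : Cm p), b (z + fr ξ₀ (ι (b (z + fr ξ w)))) = b (z + fr ξ w) :=
    ((sl ξ).1.continuousAt.tendsto.mono_right (by simp)).eventually i3
  have u3 : (fderiv ℂ b z).comp ((fr ξ₀).comp (fderiv ℂ (fun w => ι (b (z + fr ξ w))) 0)) =
      (fderiv ℂ b z).comp (fr ξ) :=
    (HasFDerivAt.comp (g := b) 0 (by simpa [i2] using hb.differentiableAt.hasFDerivAt) u1).unique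
      ((sl ξ).2.congr_of_eventuallyEq u2)
  refine ⟨fun w => z + fr ξ₀ (ι (b (z + fr ξ w))),
    Matrix.of fun k k' => fderiv ℂ (fun w => ι (b (z + fr ξ w))) 0 (Pi.single k 1) k',
    analyticAt_const.add (((fr ξ₀).analyticAt _).comp v1), by simp [i2], fun k => ?_, u2, ?_⟩
  · rw [u1.fderiv]
    exact fr_apply _ _
  · refine congrArg Matrix.det ?_
    ext i j
    have h3 := congrArg (fun L : Cm p →L[ℂ] Cm p => L (Pi.single j 1) i) u3
    simp only [ContinuousLinearMap.comp_apply, fr_single] at h3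
    rw [fr_apply] at h3
    exact h3

end Vale.Agent.P284Z.L.S6a
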